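import Vale.Agent.P245.H411.Two

/-!
Tilts `e^{-s F} μ / Z` by Lipschitz functions `F` for which the density of `μ` times `e^{-t F}` is
log-concave (`F` need not be convex). After H411.
-/

open MeasureTheory Real Set Filter Topology
open scoped ENNReal ContDiff

namespace Vale.Agent.P245.H902

open Vale.Agent.P245.H607 Vale.Agent.P245.H411

variable {n : ℕ} {μ : Measure (EuclideanSpace ℝ (Fin n))} {F : EuclideanSpace ℝ (Fin n) → ℝ}

/-- a tilt by `e^{-s F}`, `0 ≤ s ≤ t`, is log-concave if the tilt by `e^{-t F}` is. -/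
theorem tilted_lc [IsProbabilityMeasure μ] {a : ℝ} (ha : 0 < a) (hsub : LinearlySubgaussian μ a)
    {ρ : EuclideanSpace ℝ (Fin n) → ℝ} (hm : Measurable ρ) (h0 : ∀ x, 0 ≤ ρ x)
    (hco : ConcaveOn ℝ {x | 0 < ρ x} (fun x => Real.log (ρ x)))
    (hμ : μ = (volume : Measure (EuclideanSpace ℝ (Fin n))).withDensity
      (fun x => ENNReal.ofReal (ρ x)))
    (hF : LipschitzWith 1 F) {t : ℝ} (ht : 0 < t)
    (hcot : ConcaveOn ℝ {x | 0 < ρ x} (fun x => Real.log (ρ x) - t * F x))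
    {s : ℝ} (hs : 0 ≤ s) (hst : s ≤ t) :
    HasLogConcaveDensity (nu μ F s) := by
  have hc : Continuous F := hF.continuous
  have hi := H767.tilt_int ha hsub hF s
  set Z : ℝ := ∫ x, exp (-s * F x) ∂μ with hZ
  have hZ0 : 0 < Z := integral_exp_pos hi
  have hpos : ∀ x, 0 < exp (-s * F x) / Z := fun x => div_pos (exp_pos _) hZ0
  have hset : {x | 0 < ρ x * (exp (-s * F x) / Z)} = {x | 0 < ρ x} := by
    ext x
    simp only [Set.mem_ofPred_eq]
    exact ⟨fun h => by
      by_contra h'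
      have : ρ x = 0 := le_antisymm (not_lt.1 h') (h0 x)
      rw [this, zero_mul] at h
      exact lt_irrefl _ h, fun h => mul_pos h (hpos x)⟩
  refine ⟨fun x => ρ x * (exp (-s * F x) / Z), by fun_prop,
    fun x => mul_nonneg (h0 x) (hpos x).le, ?_, ?_⟩
  · rw [hset]
    have hst0 : 0 ≤ 1 - s / t := by
      rw [sub_nonneg, div_le_one ht]; exact hst
    have h1 : ConcaveOn ℝ {x | 0 < ρ x}
        (fun x => ((1 - s / t) * Real.log (ρ x) + (s / t) * (Real.log (ρ x) - t * F x))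
          + -Real.log Z) := by
      refine ((hco.smul hst0).add (hcot.smul (div_nonneg hs ht.le))).add
        (concaveOn_const _ hco.1)
    refine h1.congr fun x hx => ?_
    simp only [Set.mem_ofPred_eq] at hx
    rw [Real.log_mul hx.ne' (hpos x).ne', Real.log_div (exp_pos _).ne' hZ0.ne', Real.log_exp]
    have : s / t * (t * F x) = s * F x := by field_simp
    show (1 - s / t) * Real.log (ρ x) + s / t * (Real.log (ρ x) - t * F x) + -Real.log Z = _
    linear_combination (-1 : ℝ) * this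
  · have e1 : nu μ F s
        = μ.withDensity (fun x => ENNReal.ofReal (exp (-s * F x) / Z)) := rfl
    rw [e1]
    conv_lhs => rw [hμ]
    rw [← withDensity_mul _ (by fun_prop) (by fun_prop)]
    congr 1
    funext x
    rw [Pi.mul_apply, ← ENNReal.ofReal_mul (h0 x)]

/-- the inequality for fixed `A`, `N` and `β`, any Lipschitz test function -/
theorem ineqG [IsProbabilityMeasure μ] {a C0 : ℝ} (ha : 0 < a) (hC0 : 0 < C0) (hK : KLS C0)
    (hsub : LinearlySubgaussian μ a)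
    (hF : LipschitzWith 1 F) (h : Std μ F)
    {v : EuclideanSpace ℝ (Fin n) → ℝ} (hvlip : ∀ x y, v x - v y ≤ ‖x - y‖)
    {A t β : ℝ} (hA : 0 < A) (ht : 0 < t) (hβ : 0 < β)
    (hT : ∀ s, 0 ≤ s → s ≤ t → HasLogConcaveDensity (nu μ F s)) {N : ℕ} (hN : 0 < N) :
    ∫ x, v x ∂(nu μ F 0) - ∫ x, v x ∂(nu μ F t) ≤ (A⁻¹ + β * t * (4 * a ^ 2 + A⁻¹)) / 2
      + N * (A / 2 * (t / N * β
        * (2 * a ^ 2 * (t * (mm μ F 0 - mm μ F t) + (0.6932 + 0.3466 * n)) + A⁻¹)) ^ 2)
      + C0 / (2 * β) * ((mm μ F 0 - mm μ F (t + t / N))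
        * exp (t / N * (mm μ F 0 - mm μ F (t + t / N))))
      + 4 * a * √(t * (mm μ F 0 - mm μ F t)) := by
  have hN' : (0 : ℝ) < N := Nat.cast_pos.2 hN
  set D := mm μ F 0 - mm μ F t with hD
  have hD0 : 0 ≤ D := sub_nonneg.2 (mm_anti h ht.le)
  have htD : 0 ≤ t * D := mul_nonneg ht.le hD0
  have hile : ∀ i, i < N → (i : ℝ) * (t / N) ≤ t := by
    intro i hi
    have : (i : ℝ) ≤ N := Nat.cast_le.2 hi.le
    calc (i : ℝ) * (t / N) ≤ N * (t / N) := mul_le_mul_of_nonneg_right this (by positivity)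
      _ = t := by field_simp
  -- covariance operators
  have hcov : ∀ i : ℕ, ∃ T : EuclideanSpace ℝ (Fin n) →L[ℝ] EuclideanSpace ℝ (Fin n),
      (∀ w w', inner ℝ (T w) w' = inner ℝ w (T w')) ∧ (∀ w, 0 ≤ inner ℝ (T w) w) ∧
      (∀ w, inner ℝ (T w) w ≤ ∫ x, inner ℝ w x ^ 2 ∂(nu μ F (i * (t / N)))) ∧
      (∀ w, ‖T w‖ ≤ (∫ x, ‖x‖ ^ 2 ∂(nu μ F (i * (t / N)))) * ‖w‖) ∧
      (i < N → ∀ u : EuclideanSpace ℝ (Fin n) → ℝ, CA A u →
      (∫ x, u x ^ 2 ∂(nu μ F (i * (t / N)))) - (∫ x, u x ∂(nu μ F (i * (t / N)))) ^ 2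
      ≤ C0 * ∫ x, inner ℝ (T (gradient u x)) (gradient u x) ∂(nu μ F (i * (t / N)))) := by
    intro i
    have hp := h.prob_nu (i * (t / N))
    have hs : (0 : ℝ) ≤ i * (t / N) := by positivity
    have h2 : Integrable (fun x => ‖x‖ ^ 2) (nu μ F (i * (t / N))) :=
      H767.tilted_norm_sq ha hsub hF _
    obtain ⟨b, K, T, hb, hKK, hT1, hT2, hT3, hT4, hT5⟩ := cov h2
    refine ⟨T, hT2, hT3, hT4, hT5, fun hi u hu => ?_⟩
    have hlc' : HasLogConcaveDensity (nu μ F (i * (t / N))) :=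
      hT _ hs (hile i hi)
    have h3 := ext h2 C0 K (hK n _ hlc' b K hb hKK) hu.diff (L := 1) hu.grad_le
    simp_rw [hT1] at h3
    exact h3
  choose Kop hKs hK0 hKle hKn hP using hcov
  -- bounds
  set κ := 2 * a ^ 2 * (t * D + (0.6932 + 0.3466 * n)) with hκ
  have hκ0 : 0 ≤ κ := by
    have : (0 : ℝ) ≤ n := Nat.cast_nonneg n
    positivity
  have hKκ : ∀ i, i < N → ∀ w, ‖Kop i w‖ ≤ κ * ‖w‖ := by
    intro i hi w
    refine (hKn i w).trans (mul_le_mul_of_nonneg_right ?_ (norm_nonneg _))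
    have h1 := (proj_le ha hsub hF h (EuclideanSpace.basisFun (Fin n) ℝ).orthonormal Finset.univ
      (s := i * (t / N)) (t := t) (by positivity) (hile i hi)).2
    have e : ∀ x : EuclideanSpace ℝ (Fin n),
        ∑ i, inner ℝ ((EuclideanSpace.basisFun (Fin n) ℝ) i) x ^ 2 = ‖x‖ ^ 2 := by
      intro x
      have := (EuclideanSpace.basisFun (Fin n) ℝ).sum_sq_norm_inner_right x
      simpa using this
    simp_rw [e] at h1
    simpa using h1
  -- spectral projection of the average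
  set B : EuclideanSpace ℝ (Fin n) →L[ℝ] EuclideanSpace ℝ (Fin n) :=
    ∑ i ∈ Finset.range N, Kop i with hB
  have hBin : ∀ w w', inner ℝ (B w) w' = ∑ i ∈ Finset.range N, inner ℝ (Kop i w) w' := by
    intro w w'
    rw [hB, _root_.sum_apply, sum_inner]
  have hBs : ∀ x y, inner ℝ (B x) y = inner ℝ x (B y) := by
    intro x y
    rw [hBin, real_inner_comm, hBin]
    apply Finset.sum_congr rfl
    intro i _
    rw [hKs, real_inner_comm]
  obtain ⟨w0, S, pr, hv, hSM, hpr, hpr2, hprs, hBM, hnorm⟩ := spec B hBs (N * (4 * a ^ 2))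
  have hmain := fixedS h hvlip hA ht (β := β) hβ hC0 hκ0
    (inv_pos.2 hA) (M := 4 * a ^ 2) (by positivity) hN Kop hK0 hKs hKκ
    (fun i hi => hP i hi) pr hpr hpr2 hprs (by
      intro e he1 he2
      have := hBM e he1 he2
      rw [hBin] at this
      exact this)
  -- the rank
  have hcard : (S.card : ℝ) * (3.3068) ≤ 2 * (t * D) + 1.3864 := by
    have h1 : (S.card : ℝ) * (N * (4 * a ^ 2)) ≤ ∑ i ∈ S, inner ℝ (B (w0 i)) (w0 i) := by
      have := Finset.card_nsmul_le_sum S (fun i => inner ℝ (B (w0 i)) (w0 i)) (N * (4 * a ^ 2))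
        (fun i hi => hSM i hi)
      rw [nsmul_eq_mul] at this
      exact this
    have h2 : ∑ i ∈ S, inner ℝ (B (w0 i)) (w0 i)
        ≤ N * (2 * a ^ 2 * (t * D + (0.6932 + 0.3466 * S.card))) := by
      simp_rw [hBin]
      rw [Finset.sum_comm]
      have h3 : ∀ j ∈ Finset.range N, ∑ i ∈ S, inner ℝ (Kop j (w0 i)) (w0 i)
          ≤ 2 * a ^ 2 * (t * D + (0.6932 + 0.3466 * S.card)) := by
        intro j hj
        have hj' := Finset.mem_range.1 hj
        have h4 := proj_le ha hsub hF h hv S (s := j * (t / N)) (t := t) (by positivity)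
          (hile j hj')
        have h5 : ∑ i ∈ S, inner ℝ (Kop j (w0 i)) (w0 i)
            ≤ ∑ i ∈ S, ∫ x, inner ℝ (w0 i) x ^ 2 ∂(nu μ F (j * (t / N))) :=
          Finset.sum_le_sum fun i _ => hKle j (w0 i)
        rw [← integral_finsetSum] at h5
        · exact h5.trans h4.2
        · intro i _
          exact H767.integrable_inner_sq ha hsub hv i (h.int0 _)
            ((H767.tilted_lip ha hsub hF _).const_mul _)
      calc ∑ j ∈ Finset.range N, ∑ i ∈ S, inner ℝ (Kop j (w0 i)) (w0 i)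
          ≤ ∑ _j ∈ Finset.range N, 2 * a ^ 2 * (t * D + (0.6932 + 0.3466 * S.card)) :=
            Finset.sum_le_sum h3
        _ = _ := by rw [Finset.sum_const, Finset.card_range, nsmul_eq_mul]
    have h3 := h1.trans h2
    have h4 : (S.card : ℝ) * 4 ≤ 2 * (t * D + (0.6932 + 0.3466 * S.card)) := by
      have ha2 : 0 < N * a ^ 2 := by positivity
      have h5 : (N * a ^ 2) * ((S.card : ℝ) * 4)
          ≤ (N * a ^ 2) * (2 * (t * D + (0.6932 + 0.3466 * S.card))) := by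
        nlinarith
      exact le_of_mul_le_mul_left h5 ha2
    linarith
  have hsqs : ∀ s : ℝ, 0 ≤ s → s ≤ t →
      (∫ x, ‖x - pr x‖ ∂(nu μ F s)) ^ 2
        ≤ ∫ x, ∑ i ∈ S, inner ℝ (w0 i) x ^ 2 ∂(nu μ F s) := by
    intro s hs hst
    have hp := h.prob_nu s
    have h1 := (proj_le ha hsub hF h hv S hs hst).1
    have hc : Continuous fun x : EuclideanSpace ℝ (Fin n) => ‖x - pr x‖ := by fun_prop
    have h2 : MemLp (fun x : EuclideanSpace ℝ (Fin n) => ‖x - pr x‖) 2 (nu μ F s) := by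
      rw [memLp_two_iff_integrable_sq hc.aestronglyMeasurable]
      simp_rw [hnorm]
      exact h1
    have h3 : (∫ x, ‖x - pr x‖ ∂(nu μ F s)) ^ 2 ≤ ∫ x, ‖x - pr x‖ ^ 2 ∂(nu μ F s) := by
      have i1 := h2.integrable (by norm_num)
      have i2 := h2.integrable_sq
      set m0 := ∫ x, ‖x - pr x‖ ∂(nu μ F s) with hm0
      have h4 : 0 ≤ ∫ x, (‖x - pr x‖ - m0) ^ 2 ∂(nu μ F s) :=
        integral_nonneg fun x => sq_nonneg _
      have h5 : ∫ x, (‖x - pr x‖ - m0) ^ 2 ∂(nu μ F s)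
          = ∫ x, ‖x - pr x‖ ^ 2 ∂(nu μ F s) - m0 ^ 2 := by
        have e1 : ∀ x : EuclideanSpace ℝ (Fin n), (‖x - pr x‖ - m0) ^ 2
            = ‖x - pr x‖ ^ 2 - 2 * m0 * ‖x - pr x‖ + m0 ^ 2 := fun x => by ring
        simp_rw [e1]
        have c1 : ∫ x, (‖x - pr x‖ ^ 2 - 2 * m0 * ‖x - pr x‖ + m0 ^ 2) ∂(nu μ F s)
            = ∫ x, (‖x - pr x‖ ^ 2 - 2 * m0 * ‖x - pr x‖) ∂(nu μ F s)
              + ∫ _x, m0 ^ 2 ∂(nu μ F s) :=
          integral_add (i2.sub (i1.const_mul _)) (integrable_const _)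
        have c2 : ∫ x, (‖x - pr x‖ ^ 2 - 2 * m0 * ‖x - pr x‖) ∂(nu μ F s)
            = ∫ x, ‖x - pr x‖ ^ 2 ∂(nu μ F s) - 2 * m0 * m0 := by
          rw [integral_sub i2 (i1.const_mul _), integral_const_mul]
        rw [c1, c2, integral_const]
        simp
        ring
      linarith
    simp_rw [hnorm] at h3
    exact h3
  have hQ : ∫ x, ‖x - pr x‖ ∂(nu μ F 0) + ∫ x, ‖x - pr x‖ ∂(nu μ F t)
      ≤ 4 * a * √(t * D) := by
    have q0 := (hsqs 0 le_rfl ht.le).trans
      (proj_le ha hsub hF h hv S (s := 0) (t := 0) le_rfl le_rfl).2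
    have qt := (hsqs t ht.le le_rfl).trans (proj_le ha hsub hF h hv S ht.le le_rfl).2
    rw [zero_mul, zero_add] at q0
    have hs1 := Real.sqrt_nonneg (t * D)
    have hs2 := Real.sq_sqrt htD
    rcases Nat.eq_zero_or_pos S.card with hc | hc
    · have hS : S = ∅ := Finset.card_eq_zero.1 hc
      have q1 := hsqs 0 le_rfl ht.le
      have q2 := hsqs t ht.le le_rfl
      rw [hS] at q1 q2
      simp only [Finset.sum_empty, integral_zero] at q1 q2
      have z1 : ∫ x, ‖x - pr x‖ ∂(nu μ F 0) = 0 := by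
        have := le_antisymm q1 (sq_nonneg _)
        exact pow_eq_zero_iff (by norm_num) |>.1 this
      have z2 : ∫ x, ‖x - pr x‖ ∂(nu μ F t) = 0 := by
        have := le_antisymm q2 (sq_nonneg _)
        exact pow_eq_zero_iff (by norm_num) |>.1 this
      rw [z1, z2, add_zero]
      positivity
    · have hc' : (1 : ℝ) ≤ S.card := by exact_mod_cast hc
      have hk : (S.card : ℝ) ≤ 1.0417 * (t * D) := by linarith
      have a2 : 0 < a ^ 2 := by positivity
      have r0 : (∫ x, ‖x - pr x‖ ∂(nu μ F 0)) ^ 2 ≤ (1.6 * a * √(t * D)) ^ 2 := by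
        have : 0.6932 + 0.3466 * (S.card : ℝ) ≤ 1.1 * (t * D) := by linarith
        have := mul_le_mul_of_nonneg_left this (by positivity : 0 ≤ 2 * a ^ 2)
        have e : (1.6 * a * √(t * D)) ^ 2 = 2.56 * a ^ 2 * (t * D) := by
          rw [mul_pow, hs2]; ring
        have : 0 ≤ a ^ 2 * (t * D) := by positivity
        rw [e]
        linarith
      have rt : (∫ x, ‖x - pr x‖ ∂(nu μ F t)) ^ 2 ≤ (2.1 * a * √(t * D)) ^ 2 := by
        have : t * D + (0.6932 + 0.3466 * (S.card : ℝ)) ≤ 2.1 * (t * D) := by linarith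
        have := mul_le_mul_of_nonneg_left this (by positivity : 0 ≤ 2 * a ^ 2)
        have e : (2.1 * a * √(t * D)) ^ 2 = 4.41 * a ^ 2 * (t * D) := by
          rw [mul_pow, hs2]; ring
        have : 0 ≤ a ^ 2 * (t * D) := by positivity
        rw [e]
        linarith
      have l0 := abs_le_of_sq_le_sq' r0 (by positivity)
      have lt := abs_le_of_sq_le_sq' rt (by positivity)
      have : 0 ≤ a * √(t * D) := by positivity
      linarith [l0.2, lt.2]
  linarith

end Vale.Agent.P245.H902
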